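import Mathlib
import Vale.Agent.Lib.P249.Sharp2
import Vale.Agent.Lib.P249Low.Final

open MeasureTheory

namespace Vale.Agent.Results.P249.A_bounds

theorem result.{u} (p : ℝ) (hp : 2 ≤ p) :
    (∃ C : ℝ, 0 < C ∧ ∀ ε : ℝ, 0 < ε → ε ≤ 1 →
      ∀ (Ω : Type u) [MeasurableSpace Ω] (μ : Measure Ω) (n : ℕ), 2 ≤ n →
      ∀ x : Fin n → Lp ℝ (ENNReal.ofReal p) μ,
      ∃ (d : ℕ) (y : Fin n → Fin d → ℝ),
        (d : ℝ) ≤ C * (1 + Real.log (1 / ε)) / ε ^ 2 * (n : ℝ) ∧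
        ∀ i j, ‖x i - x j‖ ^ p ≤ ∑ k, |y i k - y j k| ^ p ∧
          ∑ k, |y i k - y j k| ^ p ≤ (1 + ε) * ‖x i - x j‖ ^ p) ∧
    (∃ c : ℝ, 0 < c ∧ ∀ D : ℝ, 1 ≤ D → ∀ n : ℕ, 3 ≤ n →
      ∃ (N : ℕ) (P : Fin n → Fin N → ℝ), Function.Injective P ∧
        ∀ (d : ℕ) (y : Fin n → Fin d → ℝ) (s : ℝ), 0 < s →
          (∀ i j, s * (∑ k, |P i k - P j k| ^ p) ^ (1 / p) ≤ (∑ r, |y i r - y j r| ^ p) ^ (1 / p) ∧
            (∑ r, |y i r - y j r| ^ p) ^ (1 / p) ≤ D * s * (∑ k, |P i k - P j k| ^ p) ^ (1 / p)) →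
          c * D ^ (-p) * (Real.log n / Real.log (Real.log n)) ^ (p / 2) ≤ d) := by
  refine ⟨?_, Vale.Agent.Lib.P249Low.lower_main p hp⟩
  have hp1 : 1 ≤ p := by linarith
  have hL := Vale.Agent.Lib.P249.Lam_pos p hp1
  have hA := Vale.Agent.Lib.P249.Astar_pos p hp1
  refine ⟨768 * Vale.Agent.Lib.P249.Lam p * Vale.Agent.Lib.P249.Astar p * 19968 ^ 2,
    by positivity, ?_⟩
  intro ε hε hε1 Ω _ μ n hn x
  exact Vale.Agent.Lib.P249.main_sharp p hp ε hε hε1 n hn x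

end Vale.Agent.Results.P249.A_bounds
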