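import Mathlib
import Vale.Agent.Lib.P249.Stage12

open MeasureTheory

namespace Vale.Agent.Results.P249.A_linear

theorem result.{u} (p : ℝ) (hp : 2 ≤ p) :
    ∃ C : ℝ, 0 < C ∧ ∀ ε : ℝ, 0 < ε → ε ≤ 1 →
      ∀ (Ω : Type u) [MeasurableSpace Ω] (μ : Measure Ω) (n : ℕ), 2 ≤ n →
      ∀ x : Fin n → Lp ℝ (ENNReal.ofReal p) μ,
      ∃ (d : ℕ) (y : Fin n → Fin d → ℝ),
        (d : ℝ) ≤ C / ε ^ 3 * (n : ℝ) ∧
        ∀ i j, ‖x i - x j‖ ^ p ≤ ∑ k, |y i k - y j k| ^ p ∧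
          ∑ k, |y i k - y j k| ^ p ≤ (1 + ε) * ‖x i - x j‖ ^ p := by
  have hp1 : 1 ≤ p := by linarith
  have hL := Vale.Agent.Lib.P249.Lam_pos p hp1
  have hA := Vale.Agent.Lib.P249.Astar_pos p hp1
  refine ⟨8 * Vale.Agent.Lib.P249.Lam p * Vale.Agent.Lib.P249.Astar p * 26624 ^ 3, by positivity, ?_⟩
  intro ε hε hε1 Ω _ μ n hn x
  exact Vale.Agent.Lib.P249.main_linear p hp ε hε hε1 n hn x

end Vale.Agent.Results.P249.A_linear
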