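import Mathlib
import Vale.Agent.Lib.P249Low.Final

namespace Vale.Agent.Results.P249.A_lower

theorem result (p : ℝ) (hp : 2 ≤ p) :
    ∃ c : ℝ, 0 < c ∧ ∀ D : ℝ, 1 ≤ D → ∀ n : ℕ, 3 ≤ n →
      ∃ (N : ℕ) (P : Fin n → Fin N → ℝ), Function.Injective P ∧
        ∀ (d : ℕ) (y : Fin n → Fin d → ℝ) (s : ℝ), 0 < s →
          (∀ i j, s * (∑ k, |P i k - P j k| ^ p) ^ (1 / p) ≤ (∑ r, |y i r - y j r| ^ p) ^ (1 / p) ∧
            (∑ r, |y i r - y j r| ^ p) ^ (1 / p) ≤ D * s * (∑ k, |P i k - P j k| ^ p) ^ (1 / p)) →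
          c * D ^ (-p) * (Real.log n / Real.log (Real.log n)) ^ (p / 2) ≤ d :=
  Vale.Agent.Lib.P249Low.lower_main p hp

end Vale.Agent.Results.P249.A_lower
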