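import Mathlib
import Vale.Agent.Lib.P249.Embedding

open MeasureTheory

namespace Vale.Agent.Results.P249.M_nearlinear

theorem result {Ω : Type*} [MeasurableSpace Ω] (μ : Measure Ω) (p : ℝ) (hp : 1 ≤ p)
    (ε : ℝ) (hε : 0 < ε) (hε1 : ε ≤ 1) (n : ℕ) (hn : 2 ≤ n) (L : ℕ) (hL : 1 ≤ L)
    (x : Fin n → Lp ℝ (ENNReal.ofReal p) μ) :
    ∃ (d : ℕ) (y : Fin n → Fin d → ℝ),
      (d : ℝ) ≤ 192 / ε ^ 2 * (2 * (L : ℝ) + 2) ^ p * (n : ℝ) ^ (1 + 1 / (L : ℝ))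
        * (1 + Real.log n) ^ 2 ∧
      ∀ i j, ‖x i - x j‖ ^ p ≤ ∑ k, |y i k - y j k| ^ p ∧
        ∑ k, |y i k - y j k| ^ p ≤ (1 + ε) * ‖x i - x j‖ ^ p :=
  Vale.Agent.Lib.P249.main_ball p hp ε hε hε1 n hn L hL x

end Vale.Agent.Results.P249.M_nearlinear
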